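import Vale.Agent.P258.H331.Main

/-!
The slopes `2` and `-2` are not cosmetic for two infinite families of satellite knots, each
indexed by all companion knots `J`.
-/

namespace Vale.Agent.Results.P258.EveryCompanion

open Vale.Agent.P258

/-- For every knot diagram `J`:
(1) for every `f ≡ 2 mod 3`, the fundamental groups of the surgeries of slopes `2` and `-2` on the
`f`-twisted satellite of `J` with the first pattern are not isomorphic;
(2) for every `f ≡ 0 mod 7`, the fundamental groups of the surgeries of slopes `2` and `-2` on the
`f`-twisted satellite of `J` with the second pattern are not isomorphic. -/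
theorem result :
    (∀ (J : Diagram), J.IsKnot → ∀ (j : Fin J.n) (f : ℤ), f % 3 = 2 →
      IsEmpty (PresentedGroup (satelliteRelators pattern J patternK patternE j f 2) ≃*
        PresentedGroup (satelliteRelators pattern J patternK patternE j f (-2)))) ∧
    (∀ (J : Diagram), J.IsKnot → ∀ (j : Fin J.n) (f : ℤ), f % 7 = 0 →
      IsEmpty (PresentedGroup (satelliteRelators patternB J patternBK patternBE j f 2) ≃*
        PresentedGroup (satelliteRelators patternB J patternBK patternBE j f (-2)))) :=
  ⟨fun J hJ j f hf => Vale.Agent.P258.main J hJ j f hf,
    fun J hJ j f hf => Vale.Agent.P258.Second.main J hJ j f hf⟩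

end Vale.Agent.Results.P258.EveryCompanion
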